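import Vale.Agent.P216.Ch2.Ns2
import Vale.Agent.P216.Ch2.C313.Relh
import Vale.Agent.P216.Ch2.H456.PCon
import Vale.Agent.P216.N929.Om2

/-!
# P216-C, block [T5]: from the Thom class to the Thom cochain

`t5 : T5` : the class of `T3`, made relative to `Ac c` by `T4`, represented by a normalised cochain,
transported to `M × M` by `e × e` and cut off where `ρ₁ ≤ dist`.
-/

open Set Quaternion

set_option linter.unusedSectionVars false

namespace Vale.Agent.P216.Ch2.H456C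

open Vale.Agent.P216 Vale.Agent.P216.Ch2
open Vale.Agent.P216.H456C

open Vale.Agent.P216.AS Vale.Agent.P216.Ch2.AS Vale.Agent.P216.H901 Vale.Agent.P216.Ch2.H901 Vale.Agent.P216.H83 Vale.Agent.P216.Ch2.H83 Vale.Agent.P216.Sl Vale.Agent.P216.PS Vale.Agent.P216.H133C Vale.Agent.P216.Ch2.H133C

/-! ### Classes and lists -/

section Cls

variable {E E' : Type} [PseudoMetricSpace E] [PseudoMetricSpace E'] {k : Type} [Field k]

theorem ExL.map' {I : Type} {a : I → E → E} {a' : I → E' → E'} {X : Set E} {X' : Set E'} {n : ℕ}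
    {F : E → E'} (hF : IsMap a a' X X' F) {f : List E' → k} (hf : ExL X' n f) :
    ExL X n fun l => f (l.map F) := by
  obtain ⟨g, hg, ε, hε, h⟩ := hf
  obtain ⟨δ, hδ, h'⟩ := hF.uc ε hε
  refine ⟨fun l => g (l.map F), fun h0 l => hg h0 _, δ, hδ, fun l hl hs => ?_⟩
  rw [dl_map]
  refine h _ (by rw [List.length_map, hl]) ⟨fun y hy => ?_, fun y hy y' hy' => ?_⟩
  · obtain ⟨x, hx, rfl⟩ := List.mem_map.1 hy
    exact hF.mapsX (hs.1 x hx)
  · obtain ⟨x, hx, rfl⟩ := List.mem_map.1 hy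
    obtain ⟨x', hx', rfl⟩ := List.mem_map.1 hy'
    exact h' x (hs.1 x hx) x' (hs.1 x' hx') (hs.2 x hx x' hx')

theorem mk_zero_of_ExL {X : Set E} {n : ℕ} {c : (Fin (n + 1) → E) → k}
    (hc : c ∈ Zc (Zr (tr E) (on k) X ∅) (Zr (tr E) (on k) X X) n) (h : ExL X n (toL c)) :
    (H.mk c hc : Hr (tr E) (on k) X ∅ n) = 0 := by
  have hc' : c ∈ Zc (Cc (tr E) (on k) X) (Zr (tr E) (on k) X X) n := by
    rw [Zr_empty] at hc
    exact hc
  have hcoc : CocL X n (toL c) := by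
    obtain ⟨-, ε, hε, h1⟩ := mem_Zc_abs.1 hc'
    refine ⟨ε, hε, fun l hl hs => ?_⟩
    obtain ⟨y, rfl⟩ := exists_ofFn hl
    rw [← toL_d, toL_ofFn]
    exact h1 y (smL_ofFn.1 hs)
  have h1 : (H.mk c hc' : Ha (tr E) (on k) X n) = cls (tr E) (on k) (toL c) hcoc :=
    mk_congr (ofL_toL c).symm
  have h2 : (H.mk c hc : Hr (tr E) (on k) X ∅ n) = absE k X n (H.mk c hc') := rfl
  rw [h2, h1, cls_eq_zero.2 h, map_zero]

end Cls

end Vale.Agent.P216.Ch2.H456C
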