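import Vale.Agent.P216.Ch2.Ns2
import Vale.Agent.P216.Ch2.H456C.Thom5

/-!
# P216-C, block [T5], abstract form

`thomOut_of`: let `f : M × M → ℝ` be continuous, `≤ 1`, and `< 1` off the diagonal. If for all
`κ < 1` close to `1` there is a class of `H^n(M × M, {f ≤ κ})` which is not zero on every slice
`M × {b}`, then `ThomOut M n`.
-/

open Set

namespace Vale.Agent.P216.Ch2.H456C

open Vale.Agent.P216 Vale.Agent.P216.Ch2
open Vale.Agent.P216.H456C

open Vale.Agent.P216.AS Vale.Agent.P216.Ch2.AS Vale.Agent.P216.H901 Vale.Agent.P216.Ch2.H901 Vale.Agent.P216.H83 Vale.Agent.P216.Ch2.H83 Vale.Agent.P216.Sl Vale.Agent.P216.PS Vale.Agent.P216.H133C Vale.Agent.P216.Ch2.H133C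

variable {M : Type} [MetricSpace M]

/-- The slice `a ↦ (a, b)`. -/
def slM (b a : M) : M × M := (a, b)

theorem isMap_slM (b : M) : IsMap (tr M) (tr (M × M)) (univ : Set M) (univ : Set (M × M)) (slM b)
    where
  mapsX _ _ := mem_univ _
  eqv i := i.elim
  uc ε hε := ⟨ε, hε, fun x _ y _ h => by
    change dist (x, b) (y, b) < ε
    rw [Prod.dist_eq, dist_self]
    exact max_lt h hε⟩

/-- `x` is not zero on the slices. -/
def SlNe {k : Type} [Field k] {A : Set (M × M)} {n : ℕ}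
    (x : Hr (tr (M × M)) (on k) (univ : Set (M × M)) A n) : Prop :=
  ∀ b : M, pullR (on k) (isMap_slM b) (empty_subset _) (mapsTo_empty _ _) n
    (lesA k univ A n x) ≠ 0

/-- Distant pairs satisfy `f ≤ κ`, for all `κ < 1` large. -/
theorem exists_k [CompactSpace M] {f : M × M → ℝ} (hf : Continuous f) (h1 : ∀ p, f p ≤ 1)
    (h2 : ∀ p : M × M, f p = 1 → p.1 = p.2) {ρ : ℝ} (hρ : 0 < ρ) : ∃ κ₁ : ℝ, κ₁ < 1 ∧
      ∀ κ, κ₁ ≤ κ → ∀ p : M × M, ρ ≤ dist p.1 p.2 → f p ≤ κ := by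
  have hK : IsCompact {p : M × M | ρ ≤ dist p.1 p.2} :=
    (isClosed_le continuous_const (continuous_fst.dist continuous_snd)).isCompact
  rcases Set.eq_empty_or_nonempty {p : M × M | ρ ≤ dist p.1 p.2} with he | hne
  · refine ⟨0, one_pos, fun κ _ p hp => ?_⟩
    have : p ∈ {p : M × M | ρ ≤ dist p.1 p.2} := hp
    rw [he] at this
    exact absurd this (notMem_empty _)
  · obtain ⟨p₀, hp₀, hmax⟩ := hK.exists_isMaxOn hne hf.continuousOn
    refine ⟨f p₀, lt_of_le_of_ne (h1 p₀) fun h => ?_, fun κ hκ p hp => (hmax hp).trans hκ⟩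
    have h2' : ρ ≤ dist p₀.1 p₀.2 := hp₀
    rw [h2 p₀ h, dist_self] at h2'
    linarith

section Coch

variable {k : Type} [Field k] {n : ℕ} {A : Set (M × M)}

open Classical in
/-- The cochain of `M × M` with the cut-off. -/
noncomputable def tcA (ρ : ℝ) (f : (Fin (n + 1) → M × M) → k) (l : List (M × M)) : k :=
  if ∃ p ∈ l, ρ ≤ dist p.1 p.2 then 0 else toL f l

theorem tcA_eq {ρ ε : ℝ} {f : (Fin (n + 1) → M × M) → k}
    (hc : ∀ p : M × M, ρ / 2 ≤ dist p.1 p.2 → p ∈ A)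
    (hf : ∀ x, Sm A ε x → f x = 0) {l : List (M × M)}
    (hl : N929.Fine univ (min ε (ρ / 4)) l) : tcA ρ f l = toL f l := by
  rw [tcA]
  split_ifs with h1
  · obtain ⟨p, hp, hp1⟩ := h1
    by_cases hlen : l.length = n + 1
    · obtain ⟨x, hx⟩ := exists_ofFn hlen
      rw [← hx, toL_ofFn]
      refine (hf x (smL_ofFn.1 ?_)).symm
      rw [hx]
      constructor
      · intro q hq
        refine hc q ?_
        have h2 : dist p q < ρ / 4 := (hl.2 p hp q hq).trans_le (min_le_right _ _)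
        have h3 : dist p.1 q.1 < ρ / 4 := (le_max_left _ _).trans_lt h2
        have h4 : dist p.2 q.2 < ρ / 4 := (le_max_right _ _).trans_lt h2
        have h5 := dist_triangle4 p.1 q.1 q.2 p.2
        rw [dist_comm q.2 p.2] at h5
        linarith
      · intro q hq q' hq'
        exact (hl.2 q hq q' hq').trans_le (min_le_left _ _)
    · rw [toL_of_ne _ hlen]
  · rfl

/-- From a class relative to `A ⊇ {ρ₁ / 2 ≤ dist}` to a Thom cochain. -/
theorem exists_tau_of {ρ₁ : ℝ} (hρ : 0 < ρ₁) (hA : ∀ p : M × M, ρ₁ / 2 ≤ dist p.1 p.2 → p ∈ A)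
    (x : Hr (tr (M × M)) (on k) (univ : Set (M × M)) A n) (hx : SlNe x) :
    ∃ τ : N929.Tau k M n ρ₁, ∀ y : M, ¬ ExL (univ : Set M) n fun l =>
      τ.f (l.map fun x => (x, y)) := by
  obtain ⟨f, hf, hN, rfl⟩ := exists_mk_Nrm Stb_Zr Stb_Zr x
  obtain ⟨-, ⟨ε₁, hε₁, hv1⟩, ε₂, hε₂, hv2⟩ := mem_Zc_rel.1 hf
  have hε : 0 < min (min ε₁ ε₂) (ρ₁ / 4) := lt_min (lt_min hε₁ hε₂) (by linarith)
  have key : ∀ {l : List (M × M)}, N929.Fine univ (min (min ε₁ ε₂) (ρ₁ / 4)) l →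
      tcA ρ₁ f l = toL f l := fun hl =>
    tcA_eq hA (fun x hx => hv1 x (hx.mono subset_rfl (min_le_left _ _))) hl
  have hcoc : N929.Coc univ (min (min ε₁ ε₂) (ρ₁ / 4)) n (tcA ρ₁ f) := by
    intro l hl hs
    have e1 : dl (tcA ρ₁ f) l = dl (toL f) l := N929.dl_congr fun l' _ hl' => key (hs.sub hl')
    rw [e1, ← toL_d]
    obtain ⟨z, hz⟩ := exists_ofFn (l := l) (n := n + 2) hl
    rw [← hz, toL_ofFn]
    refine hv2 z (smL_ofFn.1 ?_)
    rw [hz]
    exact ⟨fun _ _ => mem_univ _, fun q hq q' hq' =>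
      (hs.2 q hq q' hq').trans_le ((min_le_left _ _).trans (min_le_right _ _))⟩
  refine ⟨⟨tcA ρ₁ f, fun l hl => ?_, _, hε, hcoc, fun l hl => if_pos hl⟩, fun y hex => ?_⟩
  · rw [tcA, hN l hl, ite_self]
  · refine hx y ?_
    refine mk_zero_of_ExL (c := pbK k (slM y) n f) _ ?_
    obtain ⟨g, hg, ε, hε', hgx⟩ := hex
    refine ⟨g, hg, min ε (min (min ε₁ ε₂) (ρ₁ / 4)), lt_min hε' hε, fun l hl hs => ?_⟩
    rw [← hgx l hl (hs.mono subset_rfl (min_le_left _ _))]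
    have hfine : N929.Fine univ (min (min ε₁ ε₂) (ρ₁ / 4)) (l.map fun x => (x, y)) := by
      refine ⟨fun _ _ => mem_univ _, fun p hp q hq => ?_⟩
      obtain ⟨a, ha, rfl⟩ := List.mem_map.1 hp
      obtain ⟨b, hb, rfl⟩ := List.mem_map.1 hq
      change dist (a, y) (b, y) < _
      rw [Prod.dist_eq, dist_self, max_eq_left dist_nonneg]
      exact (hs.2 a ha b hb).trans_le (min_le_right _ _)
    change toL (P265.AS.pb (slM y) f) l = tcA ρ₁ f (l.map fun x => (x, y))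
    rw [key hfine, toL_pb]
    rfl

end Coch

end Vale.Agent.P216.Ch2.H456C
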